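import Crest.Agent.X212.Sard93.Fin

/-!
# X212 / Sard93 / Smale (helper93): **Sard–Smale**, parametric transversality, charts of regular zero sets

* `dE G z`        : the partial derivative of `G : E × P → F` in the `E` direction;
* `param`         : `D G` onto and `dE G` Fredholm at the zeros in `U` ⟹ for a residual set of `p`,
                    `dE G (x, p)` is onto at every zero `(x, p) ∈ U`;
* `param_countable` : one `p` for countably many such problems;
* `sardSmale`     : regular values of a Fredholm map are residual;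
* `exists_chart`  : a regular zero set is locally a smooth graph over the kernel.
-/

set_option autoImplicit false
set_option linter.unusedSectionVars false
open scoped ContDiff Topology NNReal
open Set Filter Metric Function ContinuousLinearMap

namespace Crest.Agent.X212.Sard93

variable {E P F : Type*} [NormedAddCommGroup E] [NormedSpace ℝ E] [NormedAddCommGroup P]
  [NormedSpace ℝ P] [NormedAddCommGroup F] [NormedSpace ℝ F]

/-- partial derivative in the first variable -/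
noncomputable def dE (G : E × P → F) (z : E × P) : E →L[ℝ] F := (fderiv ℝ G z).comp (inl ℝ E P)

theorem dE_apply (G : E × P → F) (z : E × P) (ξ : E) : dE G z ξ = fderiv ℝ G z (ξ, 0) := rfl

theorem dE_eq_fderiv {G : E × P → F} {x : E} {p : P} (h : DifferentiableAt ℝ G (x, p)) :
    dE G (x, p) = fderiv ℝ (fun y => G (y, p)) x :=
  (h.hasFDerivAt.comp x (hasFDerivAt_prodMk_left x p)).fderiv.symm

section core
variable [CompleteSpace E] [CompleteSpace P] [CompleteSpace F]
  {K Q : Type*} [NormedAddCommGroup K] [NormedSpace ℝ K] [FiniteDimensional ℝ K]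
  [NormedAddCommGroup Q] [NormedSpace ℝ Q] [FiniteDimensional ℝ Q]

theorem param_core {U : Set (E × P)} (hU : IsOpen U) {G : E × P → F} (hG : ContDiffOn ℝ ∞ G U)
    {x₀ : E} {p₀ : P} (hz : (x₀, p₀) ∈ U) (h0 : G (x₀, p₀) = 0) (π : E →L[ℝ] K) (σ : Q →L[ℝ] P)
    (hinj : ∀ ξ q, fderiv ℝ G (x₀, p₀) (ξ, σ q) = 0 → π ξ = 0 → ξ = 0 ∧ q = 0)
    (hsur : ∀ f b, ∃ ξ q, fderiv ℝ G (x₀, p₀) (ξ, σ q) = f ∧ π ξ = b) :
    ∃ N ∈ 𝓝 (x₀, p₀), ∀ᶠ p in residual P, ∀ x, (x, p) ∈ N → G (x, p) = 0 →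
      Surjective (dE G (x, p)) := by
  have : CompleteSpace K := FiniteDimensional.complete ℝ K
  have : CompleteSpace Q := FiniteDimensional.complete ℝ Q
  have : ProperSpace K := FiniteDimensional.proper_real K
  -- the linear change of parameters
  let T : (E × Q) × P →L[ℝ] E × P :=
    ((fst ℝ E Q).comp (fst ℝ _ P)).prod (snd ℝ _ P + σ.comp ((snd ℝ E Q).comp (fst ℝ _ P)))
  have hT : ∀ w : (E × Q) × P, T w = (w.1.1, w.2 + σ w.1.2) := fun w => rfl
  let S : (E × Q) × P →L[ℝ] K := π.comp ((fst ℝ E Q).comp (fst ℝ _ P))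
  let H : (E × Q) × P → (F × K) × P := fun w => ((G (T w), S w), w.2)
  have hU' : IsOpen (T ⁻¹' U) := hU.preimage T.continuous
  have hGT : ContDiffOn ℝ ∞ (fun w => G (T w)) (T ⁻¹' U) :=
    hG.comp T.contDiff.contDiffOn fun _ h => h
  have hH : ContDiffOn ℝ ∞ H (T ⁻¹' U) :=
    (hGT.prodMk S.contDiff.contDiffOn).prodMk contDiff_snd.contDiffOn
  have hdG : ∀ z ∈ U, HasFDerivAt G (fderiv ℝ G z) z := fun z hz =>
    ((hG.contDiffAt (hU.mem_nhds hz)).differentiableAt (by simp)).hasFDerivAt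
  let DH : (E × Q) × P → ((E × Q) × P →L[ℝ] (F × K) × P) := fun w =>
    (((fderiv ℝ G (T w)).comp T).prod S).prod (snd ℝ _ P)
  have hdH : ∀ w, T w ∈ U → HasFDerivAt H (DH w) w := fun w hw =>
    (((hdG _ hw).comp w T.hasFDerivAt).prodMk S.hasFDerivAt).prodMk hasFDerivAt_snd
  let w₀ : (E × Q) × P := ((x₀, 0), p₀)
  have hTw₀ : T w₀ = (x₀, p₀) := by simp [hT, w₀]
  have hw₀ : w₀ ∈ T ⁻¹' U := by rw [mem_preimage, hTw₀]; exact hz
  have hk : (DH w₀).ker = ⊥ := by
    rw [LinearMap.ker_eq_bot']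
    rintro ⟨⟨ξ, q⟩, p⟩ h
    have h1 : fderiv ℝ G (T w₀) (T ((ξ, q), p)) = 0 := congrArg (fun z => z.1.1) h
    have h2 : π ξ = 0 := congrArg (fun z => z.1.2) h
    have h3 : p = 0 := congrArg (fun z => z.2) h
    rw [hTw₀, hT, h3, zero_add] at h1
    obtain ⟨rfl, rfl⟩ := hinj ξ q h1 h2
    rw [h3]; rfl
  have hr : (DH w₀).range = ⊤ := by
    rw [LinearMap.range_eq_top]
    rintro ⟨⟨f, b⟩, p⟩
    obtain ⟨ξ, q, h1, h2⟩ := hsur (f - fderiv ℝ G (x₀, p₀) (0, p)) b
    refine ⟨((ξ, q), p), Prod.ext (Prod.ext ?_ h2) rfl⟩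
    change fderiv ℝ G (T w₀) (T ((ξ, q), p)) = f
    have e : ((ξ, p + σ q) : E × P) = (ξ, σ q) + (0, p) := by simp [add_comm]
    rw [hTw₀, hT, e, map_add, h1, sub_add_cancel]
  obtain ⟨V, W, ψ, hV, hW, hwV, hVU, m1, m2, li, ri, hψ⟩ :=
    exists_locInv hU' hH hw₀ (ContinuousLinearEquiv.ofBijective (DH w₀) hk hr)
      ((hdH w₀ hw₀).fderiv.trans (ContinuousLinearEquiv.coe_ofBijective _ hk hr).symm)
  have hψc : ∀ y ∈ W, ContinuousAt ψ y := fun y hy => hψ.continuousOn.continuousAt (hW.mem_nhds hy)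
  have hdψ : ∀ y ∈ W, HasFDerivAt ψ (fderiv ℝ ψ y) y := fun y hy =>
    ((hψ.contDiffAt (hW.mem_nhds hy)).differentiableAt (by simp)).hasFDerivAt
  have hp2 : ∀ y ∈ W, (ψ y).2 = y.2 := fun y hy => congrArg Prod.snd (ri y hy)
  -- regularity criterion
  have reg : ∀ w ∈ V, G (T w) = 0 →
      Surjective (fderiv ℝ (fun b : K => (ψ ((0, b), w.2)).1.2) (S w)) → Surjective (dE G (T w)) := by
    intro w hw hG0 hs f
    have hHw : H w = ((0, S w), w.2) := by simp only [H, hG0]
    have hyW : ((0, S w), w.2) ∈ W := hHw ▸ m1 hw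
    have hψw : ψ ((0, S w), w.2) = w := hHw ▸ li w hw
    have hid : (DH w).comp (fderiv ℝ ψ ((0, S w), w.2)) = ContinuousLinearMap.id ℝ _ := by
      have ha : HasFDerivAt (H ∘ ψ) ((DH w).comp (fderiv ℝ ψ ((0, S w), w.2))) ((0, S w), w.2) := by
        refine HasFDerivAt.comp _ ?_ (hdψ _ hyW)
        rw [hψw]
        exact hdH w (hVU hw)
      have hb : HasFDerivAt (H ∘ ψ) (ContinuousLinearMap.id ℝ _) ((0, S w), w.2) := by
        refine (hasFDerivAt_id _).congr_of_eventuallyEq ?_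
        filter_upwards [hW.mem_nhds hyW] with y hy using ri y hy
      exact ha.unique hb
    set D := fderiv ℝ ψ ((0, S w), w.2) with hD
    have hid' : ∀ y, DH w (D y) = y := fun y => congrArg (fun L => L y) hid
    have hj : HasFDerivAt (fun b : K => (((0 : F), b), w.2))
        ((inl ℝ (F × K) P).comp (inr ℝ F K)) (S w) :=
      HasFDerivAt.comp (g := fun y : F × K => (y, w.2)) (f := fun b : K => ((0 : F), b)) (S w)
        (hasFDerivAt_prodMk_left ((0 : F), S w) w.2) (hasFDerivAt_prodMk_right (0 : F) (S w))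
    have hχ : HasFDerivAt (fun b : K => (ψ ((0, b), w.2)).1.2)
        (((snd ℝ E Q).comp (fst ℝ _ P)).comp (D.comp ((inl ℝ (F × K) P).comp (inr ℝ F K)))) (S w) :=
      ((snd ℝ E Q).comp (fst ℝ _ P)).hasFDerivAt.comp (S w) ((hdψ _ hyW).comp (S w) hj)
    rw [hχ.fderiv] at hs
    obtain ⟨β, hβ⟩ := hs (D ((f, 0), 0)).1.2
    have hβ' : (D ((0, β), 0)).1.2 = (D ((f, 0), 0)).1.2 := hβ
    have e1 := hid' ((f, 0), 0)
    have e2 := hid' ((0, β), 0)
    have a1 : fderiv ℝ G (T w) (T (D ((f, 0), 0))) = f := congrArg (fun z => z.1.1) e1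
    have a2 : fderiv ℝ G (T w) (T (D ((0, β), 0))) = 0 := congrArg (fun z => z.1.1) e2
    have b1 : (D ((f, 0), 0)).2 = 0 := congrArg (fun z => z.2) e1
    have b2 : (D ((0, β), 0)).2 = 0 := congrArg (fun z => z.2) e2
    refine ⟨(D ((f, 0), 0)).1.1 - (D ((0, β), 0)).1.1, ?_⟩
    have e3 : (((D ((f, 0), 0)).1.1 - (D ((0, β), 0)).1.1, 0) : E × P) =
        T (D ((f, 0), 0)) - T (D ((0, β), 0)) := by
      rw [hT, hT, b1, b2, hβ']
      simp
    rw [dE_apply, e3, map_sub, a1, a2, sub_zero]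
  -- a product neighbourhood
  have hy₀ : (((0 : F), π x₀), p₀) ∈ W := by
    have := m1 hwV
    simp only [H, hTw₀, h0] at this
    exact this
  obtain ⟨r, hr0, hrW⟩ : ∃ r > 0, ∀ b ∈ closedBall (π x₀) r, ∀ p ∈ closedBall p₀ r,
      (((0 : F), b), p) ∈ W := by
    obtain ⟨r, hr0, h⟩ := Metric.nhds_basis_closedBall.mem_iff.1 (hW.mem_nhds hy₀)
    refine ⟨r, hr0, fun b hb p hp => h ?_⟩
    rw [mem_closedBall] at hb hp ⊢
    simp only [Prod.dist_eq, dist_self, max_le_iff]
    exact ⟨⟨hr0.le, hb⟩, hp⟩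
  have hcE : ContinuousOn (dE G) U := by
    have := hG.continuousOn_fderiv_of_isOpen hU (by simp)
    exact this.clm_comp continuousOn_const
  let Good : Set P := {p | p ∈ ball p₀ r ∧ ∀ b ∈ closedBall (π x₀) r, (ψ ((0, b), p)).1.2 = 0 →
    Surjective (dE G ((ψ ((0, b), p)).1.1, p))}
  have hGo : IsOpen Good := by
    rw [isOpen_iff_mem_nhds]
    intro p hp
    refine Filter.Eventually.and (isOpen_ball.mem_nhds hp.1)
      ((isCompact_closedBall (π x₀) r).eventually_forall_of_forall_eventually fun b hb => ?_)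
    have hbW := hrW b hb p (ball_subset_closedBall hp.1)
    have hc : ContinuousAt (fun z : P × K => ψ ((0, z.2), z.1)) (p, b) :=
      ContinuousAt.comp (f := fun z : P × K => (((0 : F), z.2), z.1)) (hψc _ hbW) (by fun_prop)
    by_cases hq : (ψ ((0, b), p)).1.2 = 0
    · have hm : ((ψ ((0, b), p)).1.1, p) ∈ U := by
        have := hVU (m2 hbW)
        rw [mem_preimage, hT, hq, hp2 _ hbW, map_zero, add_zero] at this
        exact this
      have hc2 : ContinuousAt (fun z : P × K => dE G ((ψ ((0, z.2), z.1)).1.1, z.1)) (p, b) :=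
        ContinuousAt.comp (f := fun z : P × K => ((ψ ((0, z.2), z.1)).1.1, z.1))
          (hcE.continuousAt (hU.mem_nhds hm)) (hc.fst.fst.prodMk continuousAt_fst)
      filter_upwards [hc2.eventually (isOpen_surj.mem_nhds (hp.2 b hb hq))] with z hz _ using hz
    · filter_upwards [hc.fst.snd.eventually_ne hq] with z hz h using absurd h hz
  have hGd : ∀ p ∈ ball p₀ r, p ∈ closure Good := by
    intro p hp
    have hcq : ContinuousAt (fun q : Q => p + σ q) 0 := by fun_prop
    have h1 : ∀ᶠ q : Q in 𝓝 0, ∀ b ∈ closedBall (π x₀) r, (ψ ((0, b), p + σ q)).1.2 = 0 →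
        (((ψ ((0, b), p + σ q)).1.1, q), p) ∈ V := by
      refine (isCompact_closedBall (π x₀) r).eventually_forall_of_forall_eventually fun b hb => ?_
      have hbW := hrW b hb p (ball_subset_closedBall hp)
      have hc : ContinuousAt (fun z : Q × K => ψ ((0, z.2), p + σ z.1)) (0, b) :=
        ContinuousAt.comp (f := fun z : Q × K => (((0 : F), z.2), p + σ z.1))
          (by simpa using hψc _ hbW) (by fun_prop)
      by_cases hq : (ψ ((0, b), p)).1.2 = 0
      · have hc2 : ContinuousAt (fun z : Q × K => (((ψ ((0, z.2), p + σ z.1)).1.1, z.1), p)) (0, b) :=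
          (hc.fst.fst.prodMk continuousAt_fst).prodMk continuousAt_const
        have hm : (((ψ ((0, b), p + σ 0)).1.1, (0 : Q)), p) ∈ V := by
          have := m2 hbW
          have e : ψ ((0, b), p) = (((ψ ((0, b), p)).1.1, (0 : Q)), p) :=
            Prod.ext (Prod.ext rfl hq) (hp2 _ hbW)
          rw [map_zero, add_zero, ← e]
          exact this
        filter_upwards [hc2.eventually (hV.mem_nhds hm)] with z hz _ using hz
      · have hq' : (ψ ((0, b), p + σ 0)).1.2 ≠ 0 := by rwa [map_zero, add_zero]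
        filter_upwards [hc.fst.snd.eventually_ne hq'] with z hz h using absurd h hz
    have hWp : IsOpen {b : K | (((0 : F), b), p) ∈ W} := hW.preimage (by fun_prop)
    have hχ : ContDiffOn ℝ ∞ (fun b : K => (ψ ((0, b), p)).1.2) {b : K | (((0 : F), b), p) ∈ W} :=
      (hψ.comp (f := fun b : K => (((0 : F), b), p)) (by fun_prop) fun b hb => hb).fst.snd
    have hD := dense_regular hWp hχ
    rw [mem_closure_iff_nhds]
    intro O hO
    have h2 : ∀ᶠ q : Q in 𝓝 0, p + σ q ∈ O ∩ ball p₀ r :=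
      hcq.eventually (by simpa using ⟨hO, isOpen_ball.mem_nhds hp⟩)
    obtain ⟨q, ⟨hq1, hq2⟩, hq3⟩ := mem_closure_iff_nhds.1 (hD 0) _ (h1.and h2)
    refine ⟨p + σ q, hq2.1, hq2.2, fun b hb hb0 => ?_⟩
    have hbW := hrW b hb _ (ball_subset_closedBall hq2.2)
    set x := (ψ ((0, b), p + σ q)).1.1 with hx
    have hwV' : ((x, q), p) ∈ V := hq1 b hb hb0
    have hH1 := ri _ hbW
    have hG1 : G (x, p + σ q) = 0 := by
      have : G (T (ψ ((0, b), p + σ q))) = 0 := congrArg (fun z => z.1.1) hH1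
      rwa [hT, hb0, hp2 _ hbW, map_zero, add_zero] at this
    have hS1 : π x = b := congrArg (fun z => z.1.2) hH1
    have hHw : H ((x, q), p) = ((0, b), p) := by
      simp only [H, hT, hG1]
      exact Prod.ext (Prod.ext rfl hS1) rfl
    have hyW : (((0 : F), b), p) ∈ W := hHw ▸ m1 hwV'
    have hψw : ψ ((0, b), p) = ((x, q), p) := hHw ▸ li _ hwV'
    have := reg ((x, q), p) hwV' hG1 (by
      have e : S ((x, q), p) = b := hS1
      rw [e]
      exact hq3 b hyW (by rw [hψw]))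
    exact this
  let i : E × P → (E × Q) × P := fun z => ((z.1, 0), z.2)
  have hi : Continuous i := by fun_prop
  refine ⟨{z | i z ∈ V ∧ π z.1 ∈ closedBall (π x₀) r ∧ z.2 ∈ closedBall p₀ (r / 2)}, ?_, ?_⟩
  · refine Filter.Eventually.and (hi.continuousAt.eventually (hV.mem_nhds hwV))
      (Filter.Eventually.and ?_ ?_)
    · exact (show ContinuousAt (fun z : E × P => π z.1) (x₀, p₀) by fun_prop).eventually
        (closedBall_mem_nhds _ hr0)
    · exact (continuousAt_snd (p := (x₀, p₀))).eventually (closedBall_mem_nhds _ (half_pos hr0))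
  · have ho : IsOpen (Good ∪ (closedBall p₀ (r / 2))ᶜ) := hGo.union isClosed_closedBall.isOpen_compl
    have hd : Dense (Good ∪ (closedBall p₀ (r / 2))ᶜ) := by
      intro p
      by_cases hp : p ∈ closedBall p₀ (r / 2)
      · exact closure_mono subset_union_left
          (hGd p (closedBall_subset_ball (half_lt_self hr0) hp))
      · exact subset_closure (Or.inr hp)
    filter_upwards [residual_of_dense_open ho hd] with p hp x hx hG0
    rcases hp with hp | hp
    · have hTi : T (i (x, p)) = (x, p) := by simp [hT, i]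
      have hHw : H (i (x, p)) = ((0, π x), p) := by
        simp only [H, hTi, hG0]
        rfl
      have hψw : ψ ((0, π x), p) = ((x, 0), p) := hHw ▸ li _ hx.1
      have := hp.2 (π x) hx.2.1 (by rw [hψw])
      rwa [hψw] at this
    · exact absurd hx.2.2 hp

end core

variable [CompleteSpace E] [CompleteSpace P] [CompleteSpace F]

/-- local form of the parametric transversality theorem -/
theorem param_loc {U : Set (E × P)} (hU : IsOpen U) {G : E × P → F} (hG : ContDiffOn ℝ ∞ G U)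
    {z : E × P} (hz : z ∈ U) (h0 : G z = 0) (hF : (dE G z).IsFredholm)
    (hS : Surjective (fderiv ℝ G z)) :
    ∃ N ∈ 𝓝 z, ∀ᶠ p in residual P, ∀ x, (x, p) ∈ N → G (x, p) = 0 → Surjective (dE G (x, p)) := by
  obtain ⟨x₀, p₀⟩ := z
  set L := dE G (x₀, p₀) with hL
  set D := fderiv ℝ G (x₀, p₀) with hD
  have hsplit : ∀ ξ p, D (ξ, p) = L ξ + D (0, p) := fun ξ p => by
    rw [hL, dE_apply, ← hD, ← map_add]
    simp
  have := hF.finite_ker
  have : IsClosed (L.range : Set F) := hF.isClosed_range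
  have : FiniteDimensional ℝ (F ⧸ L.range) := hF.finite_coker
  obtain ⟨π, hπ⟩ := hF.closedComplemented_ker
  let ρ : F →L[ℝ] F ⧸ L.range := L.range.mkQL
  have hρ0 : ∀ f, ρ f = 0 ↔ f ∈ L.range := fun f => Submodule.Quotient.mk_eq_zero _
  have hρL : ∀ ξ, ρ (L ξ) = 0 := fun ξ => (hρ0 _).2 ⟨ξ, rfl⟩
  have hM : Surjective (ρ.comp (D.comp (inr ℝ E P))) := by
    intro c
    obtain ⟨f, rfl⟩ := L.range.mkQ_surjective c
    obtain ⟨⟨ξ, p⟩, rfl⟩ := hS f
    refine ⟨p, ?_⟩
    change ρ (D (0, p)) = ρ (D (ξ, p))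
    rw [hsplit ξ p, map_add, hρL, zero_add]
  obtain ⟨σ, hσ⟩ := HasRightInverse.of_surjective_of_finiteDimensional hM
  have hσ' : ∀ q, ρ (D (0, σ q)) = q := hσ
  refine param_core hU hG hz h0 π σ (fun ξ q h1 h2 => ?_) (fun f b => ?_)
  · rw [← hD, hsplit] at h1
    have hq : q = 0 := by
      have := congrArg ρ h1
      rwa [map_add, hρL, zero_add, hσ', map_zero] at this
    have hξ : ξ ∈ L.ker := by
      rw [hq, map_zero, Prod.mk_zero_zero, map_zero, add_zero] at h1
      exact h1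
    have := hπ ⟨ξ, hξ⟩
    rw [h2] at this
    exact ⟨(congrArg Subtype.val this).symm, hq⟩
  · have hm : f - D (0, σ (ρ f)) ∈ L.range := by
      rw [← hρ0, map_sub, hσ', sub_self]
    obtain ⟨ξ, hξ⟩ := hm
    have hξ' : L ξ = f - D (0, σ (ρ f)) := hξ
    refine ⟨ξ - (π ξ : E) + (b : E), ρ f, ?_, ?_⟩
    · have h1 : L (π ξ : E) = 0 := (π ξ).2
      have h2 : L (b : E) = 0 := b.2
      rw [← hD, hsplit, map_add, map_sub, h1, h2, hξ']
      abel
    · rw [map_add, map_sub, hπ, hπ, sub_self, zero_add]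

/-- **parametric transversality** (Sard–Smale), for a Lindelöf set `Z` of zeros -/
theorem param_of_lindelof {U : Set (E × P)} (hU : IsOpen U) {G : E × P → F}
    (hG : ContDiffOn ℝ ∞ G U) {Z : Set (E × P)} (hZ : IsLindelof Z) (hZU : Z ⊆ U)
    (h0 : ∀ z ∈ Z, G z = 0) (hF : ∀ z ∈ Z, (dE G z).IsFredholm)
    (hS : ∀ z ∈ Z, Surjective (fderiv ℝ G z)) :
    ∀ᶠ p in residual P, ∀ x, (x, p) ∈ Z → Surjective (dE G (x, p)) := by
  have h := fun z (hz : z ∈ Z) => param_loc hU hG (hZU hz) (h0 z hz) (hF z hz) (hS z hz)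
  choose! N hN hres using h
  obtain ⟨s, hc, hs, hcov⟩ := hZ.elim_nhds_subcover N hN
  have := (eventually_countable_ball hc).2 fun z hz => hres z (hs z hz)
  filter_upwards [this] with p hp x hx
  obtain ⟨z, hz, hxz⟩ := mem_iUnion₂.1 (hcov hx)
  exact hp z hz x hxz (h0 _ hx)

/-- **parametric transversality** (Sard–Smale) -/
theorem param [SecondCountableTopology E] [SecondCountableTopology P] {U : Set (E × P)}
    (hU : IsOpen U) {G : E × P → F} (hG : ContDiffOn ℝ ∞ G U)
    (hF : ∀ z ∈ U, G z = 0 → (dE G z).IsFredholm)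
    (hS : ∀ z ∈ U, G z = 0 → Surjective (fderiv ℝ G z)) :
    ∀ᶠ p in residual P, ∀ x, (x, p) ∈ U → G (x, p) = 0 → Surjective (dE G (x, p)) := by
  have := param_of_lindelof hU hG (Z := {z ∈ U | G z = 0}) (HereditarilyLindelofSpace.isLindelof _)
    (fun z hz => hz.1) (fun z hz => hz.2) (fun z hz => hF z hz.1 hz.2) (fun z hz => hS z hz.1 hz.2)
  filter_upwards [this] with p hp x h1 h2 using hp x ⟨h1, h2⟩

/-- one parameter for countably many residual conditions, in any given non-empty open set -/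
theorem exists_mem_of_residual {ι : Type*} [Countable ι] {q : ι → P → Prop}
    (h : ∀ i, ∀ᶠ p in residual P, q i p) {O : Set P} (hO : IsOpen O) (hne : O.Nonempty) :
    ∃ p ∈ O, ∀ i, q i p := by
  obtain ⟨p, h1, h2⟩ := (dense_of_mem_residual (eventually_countable_forall.2 h)).inter_open_nonempty
    O hO hne
  exact ⟨p, h1, h2⟩

omit [CompleteSpace P] in
/-- **Sard–Smale**: the regular values of a smooth Fredholm map are residual -/
theorem sardSmale [SecondCountableTopology E] {U : Set E} (hU : IsOpen U) {f : E → F}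
    (hf : ContDiffOn ℝ ∞ f U) (hF : ∀ x ∈ U, (fderiv ℝ f x).IsFredholm) :
    ∀ᶠ c in residual F, ∀ x ∈ U, f x = c → Surjective (fderiv ℝ f x) := by
  let G : E × F → F := fun z => f z.1 - z.2
  have hU' : IsOpen (U ×ˢ (univ : Set F)) := hU.prod isOpen_univ
  have hG : ContDiffOn ℝ ∞ G (U ×ˢ univ) :=
    (hf.comp contDiff_fst.contDiffOn fun z hz => hz.1).sub contDiff_snd.contDiffOn
  have hd : ∀ z : E × F, z.1 ∈ U →
      fderiv ℝ G z = (fderiv ℝ f z.1).comp (fst ℝ E F) - snd ℝ E F := fun z hz =>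
    ((((hf.contDiffAt (hU.mem_nhds hz)).differentiableAt (by simp)).hasFDerivAt.comp z
      hasFDerivAt_fst).sub hasFDerivAt_snd).fderiv
  have hE : ∀ z : E × F, z.1 ∈ U → dE G z = fderiv ℝ f z.1 := fun z hz => by
    ext ξ
    rw [dE_apply, hd z hz]
    simp
  have hZ : IsLindelof ((fun x => (x, f x)) '' U) :=
    (HereditarilyLindelofSpace.isLindelof U).image_of_continuousOn
      (continuousOn_id.prodMk hf.continuousOn)
  have := param_of_lindelof hU' hG hZ (by rintro _ ⟨x, hx, rfl⟩; exact ⟨hx, trivial⟩)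
    (by rintro _ ⟨x, hx, rfl⟩; exact sub_self _)
    (by rintro _ ⟨x, hx, rfl⟩; rw [hE _ hx]; exact hF x hx)
    (by
      rintro _ ⟨x, hx, rfl⟩ c
      refine ⟨(0, -c), ?_⟩
      rw [hd _ hx]
      simp)
  filter_upwards [this] with c hc x hx hxc
  have h := hc x ⟨x, hx, Prod.ext rfl hxc⟩
  rwa [hE _ hx] at h

omit [CompleteSpace P] in
/-- a regular zero set is locally a smooth graph over the kernel -/
theorem exists_chart {U : Set E} (hU : IsOpen U) {g : E → F} (hg : ContDiffOn ℝ ∞ g U) {x₀ : E}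
    (hx₀ : x₀ ∈ U) (hS : Surjective (fderiv ℝ g x₀))
    (hK : (fderiv ℝ g x₀).ker.ClosedComplemented) :
    ∃ (π : E →L[ℝ] (fderiv ℝ g x₀).ker) (V : Set E) (W : Set (fderiv ℝ g x₀).ker)
      (ξ : (fderiv ℝ g x₀).ker → E), (∀ b : (fderiv ℝ g x₀).ker, π b = b) ∧ IsOpen V ∧ IsOpen W ∧
      x₀ ∈ V ∧ V ⊆ U ∧ ContDiffOn ℝ ∞ ξ W ∧ (∀ x ∈ V, g x = 0 → π x ∈ W ∧ ξ (π x) = x) ∧
      (∀ b ∈ W, ξ b ∈ V ∧ g (ξ b) = 0 ∧ π (ξ b) = b) := by
  set L := fderiv ℝ g x₀ with hL
  obtain ⟨π, hπ⟩ := hK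
  have : CompleteSpace L.ker := L.isClosed_ker.completeSpace_coe
  have hd : HasFDerivAt g L x₀ :=
    ((hg.contDiffAt (hU.mem_nhds hx₀)).differentiableAt (by simp)).hasFDerivAt
  have hk : (L.prod π).ker = ⊥ := by
    rw [LinearMap.ker_eq_bot']
    intro ξ h
    have h1 : L ξ = 0 := congrArg Prod.fst h
    have h2 : π ξ = 0 := congrArg Prod.snd h
    have := hπ ⟨ξ, h1⟩
    rw [h2] at this
    exact (congrArg Subtype.val this).symm
  have hr : (L.prod π).range = ⊤ := by
    rw [LinearMap.range_eq_top]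
    rintro ⟨f, b⟩
    obtain ⟨ξ, rfl⟩ := hS f
    refine ⟨ξ - (π ξ : E) + (b : E), Prod.ext ?_ ?_⟩
    · change L _ = L ξ
      have h1 : L (π ξ : E) = 0 := (π ξ).2
      have h2 : L (b : E) = 0 := b.2
      rw [map_add, map_sub, h1, h2, sub_zero, add_zero]
    · change π _ = b
      rw [map_add, map_sub, hπ, hπ, sub_self, zero_add]
  obtain ⟨V, W, ψ, hV, hW, hxV, hVU, m1, m2, li, ri, hψ⟩ :=
    exists_locInv hU (h := fun x => (g x, π x)) (hg.prodMk π.contDiff.contDiffOn) hx₀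
      (ContinuousLinearEquiv.ofBijective (L.prod π) hk hr)
      ((hd.prodMk π.hasFDerivAt).fderiv.trans (ContinuousLinearEquiv.coe_ofBijective _ hk hr).symm)
  refine ⟨π, V, {b | ((0 : F), b) ∈ W}, fun b => ψ (0, b), hπ, hV, hW.preimage (by fun_prop), hxV,
    hVU, hψ.comp (f := fun b : L.ker => ((0 : F), b)) (by fun_prop) fun b hb => hb,
    fun x hx hx0 => ?_, fun b hb => ⟨m2 hb, congrArg Prod.fst (ri _ hb), congrArg Prod.snd (ri _ hb)⟩⟩
  have h1 := m1 hx
  have h2 := li x hx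
  simp only [hx0] at h1 h2
  exact ⟨h1, h2⟩

end Crest.Agent.X212.Sard93
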