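import Crest.Agent.X212.Sard93.Loc

/-!
# X212 / Sard93 / Fin (helper93): **Sard's theorem** for `C^∞` maps between finite-dimensional spaces
(Milnor's proof).  `sard : μ (f '' {x ∈ U | ¬ Surjective (fderiv ℝ f x)}) = 0`.
-/

set_option autoImplicit false
open scoped ContDiff Topology NNReal ENNReal
open Set Filter Metric Function MeasureTheory Module

universe u v

namespace Crest.Agent.X212.Sard93

section van
variable {E : Type u} [NormedAddCommGroup E] [NormedSpace ℝ E]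

/-- `g` vanishes at `x` together with its derivatives of order `< k` -/
def Van : ℕ → ∀ {G : Type (max u v)} [NormedAddCommGroup G] [NormedSpace ℝ G], (E → G) → E → Prop
  | 0, _, _, _, _, _ => True
  | k + 1, _, _, _, g, x => g x = 0 ∧ Van k (fderiv ℝ g) x

theorem mvt_pow {G : Type*} [NormedAddCommGroup G] [NormedSpace ℝ G] {g : E → G} {x₀ x y : E}
    {r c : ℝ} {k : ℕ} (hc : 0 ≤ c) (hg : ∀ z ∈ ball x₀ r, DifferentiableAt ℝ g z)
    (hx : x ∈ ball x₀ r) (hy : y ∈ ball x₀ r)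
    (h : ∀ z ∈ ball x₀ r, ‖fderiv ℝ g z‖ ≤ c * ‖z - x‖ ^ k) :
    ‖g y - g x‖ ≤ c * ‖y - x‖ ^ (k + 1) := by
  have hs : segment ℝ x y ⊆ ball x₀ r := (convex_ball x₀ r).segment_subset hx hy
  have hb : ∀ z ∈ segment ℝ x y, ‖fderiv ℝ g z‖ ≤ c * ‖y - x‖ ^ k := by
    intro z hz
    refine (h z (hs hz)).trans ?_
    have : ‖z - x‖ ≤ ‖y - x‖ := by
      have := segment_subset_closedBall_left x y hz
      rwa [mem_closedBall, dist_eq_norm, dist_comm, dist_eq_norm] at this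
    gcongr
  have := (convex_segment x y).norm_image_sub_le_of_norm_fderiv_le (fun z hz => hg z (hs hz)) hb
    (left_mem_segment ℝ x y) (right_mem_segment ℝ x y)
  rw [pow_succ, ← mul_assoc]
  exact this

theorem van_est {U : Set E} (hU : IsOpen U) {x₀ : E} (hx₀ : x₀ ∈ U) (k : ℕ) :
    ∀ {G : Type (max u v)} [NormedAddCommGroup G] [NormedSpace ℝ G] {g : E → G},
      ContDiffOn ℝ ∞ g U → ∃ r > 0, ∃ c ≥ 0, ball x₀ r ⊆ U ∧
        ∀ x ∈ ball x₀ r, Van.{u, v} k g x → ∀ y ∈ ball x₀ r, ‖g y‖ ≤ c * ‖y - x‖ ^ k := by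
  induction k with
  | zero =>
    intro G _ _ g hg
    have hc : ContinuousAt g x₀ := hg.continuousOn.continuousAt (hU.mem_nhds hx₀)
    have h1 : ∀ᶠ y in 𝓝 x₀, ‖g y‖ < ‖g x₀‖ + 1 :=
      hc.norm.eventually (gt_mem_nhds (lt_add_one _))
    obtain ⟨r, hr, hb⟩ := Metric.eventually_nhds_iff_ball.1 (h1.and (hU.mem_nhds hx₀))
    refine ⟨r, hr, ‖g x₀‖ + 1, by positivity, fun y hy => (hb y hy).2, fun x _ _ y hy => ?_⟩
    simpa using (hb y hy).1.le
  | succ k ih =>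
    intro G _ _ g hg
    obtain ⟨r, hr, c, hc, hb, h⟩ := ih (hg.fderiv_of_isOpen hU (m := ∞) (by simp))
    refine ⟨r, hr, c, hc, hb, fun x hx hv y hy => ?_⟩
    have := mvt_pow hc (g := g) (fun z hz =>
      (hg.contDiffAt (hU.mem_nhds (hb hz))).differentiableAt (by simp)) hx hy (h x hx hv.2)
    rwa [hv.1, sub_zero] at this

theorem van_fun {U : Set E} (hU : IsOpen U) {x₀ : E} (hx₀ : x₀ ∈ U) (k : ℕ) :
    ∀ {G : Type (max u v)} [NormedAddCommGroup G] [NormedSpace ℝ G] {g : E → G},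
      ContDiffOn ℝ ∞ g U → Van.{u, v} (k + 1) g x₀ → ¬ Van.{u, v} (k + 2) g x₀ →
      ∃ w : E → ℝ, ContDiffOn ℝ ∞ w U ∧ fderiv ℝ w x₀ ≠ 0 ∧
        ∀ x, Van.{u, v} (k + 1) g x → w x = 0 := by
  induction k with
  | zero =>
    intro G _ _ g hg h1 h2
    have h3 : fderiv ℝ g x₀ ≠ 0 := fun h => h2 ⟨h1.1, h, trivial⟩
    obtain ⟨e, he⟩ : ∃ e, fderiv ℝ g x₀ e ≠ 0 := by
      by_contra h
      push Not at h
      exact h3 (ContinuousLinearMap.ext h)
    obtain ⟨φ, hφ⟩ := SeparatingDual.exists_ne_zero (R := ℝ) he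
    have hd : DifferentiableAt ℝ g x₀ :=
      (hg.contDiffAt (hU.mem_nhds hx₀)).differentiableAt (by simp)
    refine ⟨φ ∘ g, φ.contDiff.comp_contDiffOn hg, fun h => hφ ?_, fun x hx => ?_⟩
    · have := (φ.hasFDerivAt.comp x₀ hd.hasFDerivAt).fderiv
      rw [h] at this
      simpa using (congrArg (fun L : E →L[ℝ] ℝ => L e) this).symm
    · simp [hx.1]
  | succ k ih =>
    intro G _ _ g hg h1 h2
    obtain ⟨w, hw, hw0, hv⟩ := ih (hg.fderiv_of_isOpen hU (m := ∞) (by simp)) h1.2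
      (fun h => h2 ⟨h1.1, h⟩)
    exact ⟨w, hw, hw0, fun x hx => hv x hx.2⟩

theorem van_cases {G : Type (max u v)} [NormedAddCommGroup G] [NormedSpace ℝ G] {g : E → G} {x : E}
    (h : Van.{u, v} 1 g x) (N : ℕ) :
    Van.{u, v} (N + 1) g x ∨ ∃ k, Van.{u, v} (k + 1) g x ∧ ¬ Van.{u, v} (k + 2) g x := by
  induction N with
  | zero => exact Or.inl h
  | succ N ih =>
    rcases ih with h1 | h1
    · by_cases h2 : Van.{u, v} (N + 2) g x
      · exact Or.inl h2
      · exact Or.inr ⟨N, h1, h2⟩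
    · exact Or.inr h1

/-- the levels of a function with non-zero derivative are parametrised by a smaller space -/
theorem exists_level [FiniteDimensional ℝ E] {U : Set E} (hU : IsOpen U) {w : E → ℝ}
    (hw : ContDiffOn ℝ ∞ w U) {x₀ : E} (hx₀ : x₀ ∈ U) (h0 : fderiv ℝ w x₀ ≠ 0) :
    ∃ E' : Submodule ℝ E, finrank ℝ E' < finrank ℝ E ∧
      ∃ (V : Set E) (W : Set (ℝ × E')) (ψ : ℝ × E' → E), IsOpen V ∧ IsOpen W ∧ x₀ ∈ V ∧ V ⊆ U ∧
        ContDiffOn ℝ ∞ ψ W ∧ (∀ x ∈ V, ∃ y, (w x, y) ∈ W ∧ ψ (w x, y) = x) ∧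
        ∀ z ∈ W, ψ z ∈ V ∧ w (ψ z) = z.1 := by
  haveI : CompleteSpace E := FiniteDimensional.complete ℝ E
  set l := fderiv ℝ w x₀ with hl
  obtain ⟨e, he⟩ : ∃ e, l e ≠ 0 := by
    by_contra h
    push Not at h
    exact h0 (ContinuousLinearMap.ext h)
  let s : ℝ →L[ℝ] E := (ContinuousLinearMap.id ℝ ℝ).smulRight ((l e)⁻¹ • e)
  have hs : RightInverse s l := fun t => by
    simp only [s, ContinuousLinearMap.smulRight_apply, ContinuousLinearMap.id_apply, map_smul,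
      smul_eq_mul]
    field_simp
  let π := l.projKerOfRightInverse s hs
  let A := ContinuousLinearEquiv.equivOfRightInverse l s hs
  have hd : HasFDerivAt w l x₀ :=
    ((hw.contDiffAt (hU.mem_nhds hx₀)).differentiableAt (by simp)).hasFDerivAt
  obtain ⟨V, W, ψ, hV, hW, hxV, hVU, h1, h2, h3, h4, h5⟩ :=
    exists_locInv hU (h := fun x => (w x, π x)) (hw.prodMk π.contDiff.contDiffOn) hx₀ A
      ((hd.prodMk π.hasFDerivAt).fderiv.trans (by ext x <;> rfl))
  refine ⟨l.ker, ?_, V, W, ψ, hV, hW, hxV, hVU, h5, fun x hx => ⟨π x, h1 hx, h3 x hx⟩,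
    fun z hz => ⟨h2 hz, congrArg Prod.fst (h4 z hz)⟩⟩
  refine Submodule.finrank_lt fun h => he ?_
  have : e ∈ l.ker := h ▸ Submodule.mem_top
  exact this

end van

theorem null_image_of_loc {X Y : Type*} [TopologicalSpace X] [SecondCountableTopology X]
    [MeasurableSpace Y] {μ : Measure Y} {f : X → Y} {S : Set X}
    (h : ∀ x ∈ S, ∃ V ∈ 𝓝 x, μ (f '' (S ∩ V)) = 0) : μ (f '' S) = 0 := by
  choose! V hV h0 using h
  obtain ⟨s, hs, hc, hU⟩ := TopologicalSpace.countable_cover_nhdsWithin (s := S) (f := V)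
    fun x hx => mem_nhdsWithin_of_mem_nhds (hV x hx)
  refine measure_mono_null (t := ⋃ x ∈ s, f '' (S ∩ V x)) ?_
    ((measure_biUnion_null_iff hc).2 fun x hx => h0 x (hs hx))
  rintro _ ⟨z, hz, rfl⟩
  obtain ⟨x, hx, hzx⟩ := mem_iUnion₂.1 (hU hz)
  exact mem_iUnion₂.2 ⟨x, hx, z, ⟨hz, hzx⟩, rfl⟩

/-- the statement of Sard's theorem for one source space -/
def SardFor (E : Type u) [NormedAddCommGroup E] [NormedSpace ℝ E] : Prop :=
  ∀ (F : Type v) [NormedAddCommGroup F] [NormedSpace ℝ F] [FiniteDimensional ℝ F]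
    [MeasurableSpace F] [BorelSpace F] (μ : Measure F) [μ.IsAddHaarMeasure] (U : Set E),
    IsOpen U → ∀ f : E → F, ContDiffOn ℝ ∞ f U →
      μ (f '' {x ∈ U | ¬ Surjective (fderiv ℝ f x)}) = 0

section steps
variable {E : Type u} [NormedAddCommGroup E] [NormedSpace ℝ E] [FiniteDimensional ℝ E]
  {F : Type v} [NormedAddCommGroup F] [NormedSpace ℝ F] [FiniteDimensional ℝ F]
  [MeasurableSpace F] [BorelSpace F] {μ : Measure F} [μ.IsAddHaarMeasure] {U : Set E} {f : E → F}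

theorem stepC [Nontrivial F] (hU : IsOpen U) (hf : ContDiffOn ℝ ∞ f U) :
    μ (f '' {x ∈ U | Van.{u, v} (finrank ℝ E + 1) (fderiv ℝ f) x}) = 0 := by
  set n := finrank ℝ E with hn
  set S := {x ∈ U | Van.{u, v} (n + 1) (fderiv ℝ f) x} with hS
  have h1 : dimH (f '' S) ≤ dimH S / ((n + 2 : ℕ) : ℝ≥0) := by
    refine dimH_image_le_of_locally_holder_on (by positivity) fun x₀ hx₀ => ?_
    obtain ⟨r, hr, c, hc, hb, h⟩ := van_est.{u, v} hU hx₀.1 (n + 1)
      (hf.fderiv_of_isOpen hU (m := ∞) (by simp))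
    refine ⟨⟨c, hc⟩, S ∩ ball x₀ r, inter_mem_nhdsWithin _ (ball_mem_nhds _ hr), ?_⟩
    intro y hy x hx
    have := mvt_pow hc (g := f) (fun z hz =>
      (hf.contDiffAt (hU.mem_nhds (hb hz))).differentiableAt (by simp)) hx.2 hy.2
      (h x hx.2 hx.1.2)
    rw [edist_dist, edist_dist, dist_eq_norm, dist_eq_norm, NNReal.coe_natCast,
      ENNReal.rpow_natCast, ← ENNReal.ofReal_pow (norm_nonneg _), ENNReal.coe_nnreal_eq,
      ← ENNReal.ofReal_mul (by exact hc)]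
    exact ENNReal.ofReal_le_ofReal this
  have h2 : dimH S ≤ n := (dimH_mono (subset_univ S)).trans_eq (Real.dimH_univ_eq_finrank E)
  have h3 : dimH (f '' S) < ((finrank ℝ F : ℕ) : ℝ≥0) := by
    have h4 : (1 : ℝ≥0∞) ≤ ((finrank ℝ F : ℕ) : ℝ≥0) := by
      exact_mod_cast (finrank_pos : 0 < finrank ℝ F)
    refine lt_of_lt_of_le (h1.trans_lt ?_) h4
    refine (ENNReal.div_le_div_right h2 _).trans_lt ?_
    rw [ENNReal.div_lt_iff (Or.inl (by simp)) (Or.inl ENNReal.coe_ne_top), one_mul]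
    exact_mod_cast (by omega : n < n + 2)
  refine measure_zero_of_dimH_lt (d := ((finrank ℝ F : ℕ) : ℝ≥0)) ?_ h3
  rw [NNReal.coe_natCast]
  exact Measure.absolutelyContinuous_isAddHaarMeasure _ _

theorem stepB [Nontrivial F]
    (ih : ∀ E' : Submodule ℝ E, finrank ℝ E' < finrank ℝ E → SardFor.{u, v} E')
    (hU : IsOpen U) (hf : ContDiffOn ℝ ∞ f U) (k : ℕ) :
    μ (f '' {x ∈ U | Van.{u, v} (k + 1) (fderiv ℝ f) x ∧ ¬ Van.{u, v} (k + 2) (fderiv ℝ f) x}) = 0 := by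
  refine null_image_of_loc fun x₀ hx₀ => ?_
  obtain ⟨w, hw, hw0, hv⟩ := van_fun.{u, v} hU hx₀.1 k
    (hf.fderiv_of_isOpen hU (m := ∞) (by simp)) hx₀.2.1 hx₀.2.2
  obtain ⟨E', hE', V, W, ψ, hV, hW, hxV, hVU, hψ, h1, h2⟩ := exists_level hU hw hx₀.1 hw0
  refine ⟨V, hV.mem_nhds hxV, ?_⟩
  have hW0 : IsOpen {y : E' | ((0 : ℝ), y) ∈ W} := hW.preimage (by fun_prop)
  have hj : ContDiffOn ℝ ∞ (fun y : E' => ψ (0, y)) {y : E' | ((0 : ℝ), y) ∈ W} :=
    hψ.comp (by fun_prop) fun y hy => hy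
  refine measure_mono_null ?_ (ih E' hE' F μ _ hW0 (fun y => f (ψ (0, y)))
    (hf.comp hj fun y hy => hVU (h2 _ hy).1))
  rintro _ ⟨x, ⟨hx, hxV⟩, rfl⟩
  obtain ⟨y, hy, hyx⟩ := h1 x hxV
  rw [hv x hx.2.1] at hy hyx
  refine ⟨y, ⟨hy, fun hs => ?_⟩, by simp only [hyx]⟩
  have hdj : DifferentiableAt ℝ (fun y : E' => ψ (0, y)) y :=
    (hj.contDiffAt (hW0.mem_nhds hy)).differentiableAt (by simp)
  have hdf : HasFDerivAt f (0 : E →L[ℝ] F) (ψ (0, y)) := by
    rw [hyx, ← hx.2.1.1]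
    exact ((hf.contDiffAt (hU.mem_nhds hx.1)).differentiableAt (by simp)).hasFDerivAt
  have := (hdf.comp y hdj.hasFDerivAt).fderiv
  obtain ⟨c, hc⟩ := exists_ne (0 : F)
  obtain ⟨a, ha⟩ := hs c
  have e : (fun y : E' => f (ψ (0, y))) = f ∘ fun y : E' => ψ (0, y) := rfl
  rw [e, this] at ha
  exact hc (by simpa using ha.symm)

theorem stepA (ih : ∀ E' : Submodule ℝ E, finrank ℝ E' < finrank ℝ E → SardFor.{u, v} E')
    (hU : IsOpen U) (hf : ContDiffOn ℝ ∞ f U) :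
    μ (f '' {x ∈ U | ¬ Surjective (fderiv ℝ f x) ∧ fderiv ℝ f x ≠ 0}) = 0 := by
  haveI : CompleteSpace E := FiniteDimensional.complete ℝ E
  haveI : CompleteSpace F := FiniteDimensional.complete ℝ F
  refine null_image_of_loc fun x₀ hx₀ => ?_
  have hdf : ∀ x ∈ U, HasFDerivAt f (fderiv ℝ f x) x := fun x hx =>
    ((hf.contDiffAt (hU.mem_nhds hx)).differentiableAt (by simp)).hasFDerivAt
  obtain ⟨e, he⟩ : ∃ e, fderiv ℝ f x₀ e ≠ 0 := by
    by_contra h
    push Not at h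
    exact hx₀.2.2 (ContinuousLinearMap.ext h)
  obtain ⟨φ, hφ⟩ := SeparatingDual.exists_ne_zero (R := ℝ) he
  have hw : ContDiffOn ℝ ∞ (φ ∘ f) U := φ.contDiff.comp_contDiffOn hf
  have hdw : ∀ x ∈ U, fderiv ℝ (φ ∘ f) x = φ.comp (fderiv ℝ f x) := fun x hx =>
    (φ.hasFDerivAt.comp x (hdf x hx)).fderiv
  have hw0 : fderiv ℝ (φ ∘ f) x₀ ≠ 0 := fun h => hφ (by
    rw [hdw x₀ hx₀.1] at h
    simpa using congrArg (fun L : E →L[ℝ] ℝ => L e) h)
  obtain ⟨E', hE', V, W, ψ, hV, hW, hxV, hVU, hψ, h1, h2⟩ := exists_level hU hw hx₀.1 hw0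
  have hcf : ContinuousOn (fderiv ℝ f) U := hf.continuousOn_fderiv_of_isOpen hU (by simp)
  have hev : ∀ᶠ x in 𝓝 x₀, φ (fderiv ℝ f x e) ≠ 0 := by
    have : ContinuousAt (fun x => φ (fderiv ℝ f x e)) x₀ := by
      have := hcf.continuousAt (hU.mem_nhds hx₀.1)
      fun_prop
    exact this.eventually_ne hφ
  obtain ⟨r, hr, hb⟩ := Metric.nhds_basis_closedBall.eventually_iff.1 (hev.and (hV.mem_nhds hxV))
  refine ⟨closedBall x₀ r, closedBall_mem_nhds _ hr, ?_⟩
  set K : Set E := closedBall x₀ r ∩ fderiv ℝ f ⁻¹' {L | Surjective L}ᶜ with hK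
  have hbU : closedBall x₀ r ⊆ U := fun x hx => hVU (hb hx).2
  have hKc : IsCompact K := by
    refine (isCompact_closedBall x₀ r).of_isClosed_subset ?_ inter_subset_left
    exact (hcf.mono hbU).preimage_isClosed_of_isClosed isClosed_closedBall isOpen_surj.isClosed_compl
  refine measure_mono_null (t := f '' K) (image_mono fun x hx => ⟨hx.2, hx.1.2.1⟩) ?_
  have hfK : IsCompact (f '' K) :=
    hKc.image_of_continuousOn (hf.continuousOn.mono fun x hx => hbU hx.1)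
  let s : ℝ →L[ℝ] F :=
    (ContinuousLinearMap.id ℝ ℝ).smulRight ((φ (fderiv ℝ f x₀ e))⁻¹ • fderiv ℝ f x₀ e)
  have hs : RightInverse s φ := fun t => by
    simp only [s, ContinuousLinearMap.smulRight_apply, ContinuousLinearMap.id_apply, map_smul,
      smul_eq_mul]
    field_simp
  let π := φ.projKerOfRightInverse s hs
  let B := ContinuousLinearEquiv.equivOfRightInverse φ s hs
  let μ' : Measure φ.ker := Measure.addHaar
  let ν : Measure (ℝ × φ.ker) := (volume : Measure ℝ).prod μ'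
  have hBK : MeasurableSet (B '' (f '' K)) := (hfK.image B.continuous).measurableSet
  have hν : ν (B '' (f '' K)) = 0 := by
    rw [Measure.measure_prod_null hBK]
    refine Eventually.of_forall fun t => ?_
    have hWt : IsOpen {y : E' | (t, y) ∈ W} := hW.preimage (by fun_prop)
    have hj : ContDiffOn ℝ ∞ (fun y : E' => ψ (t, y)) {y : E' | (t, y) ∈ W} :=
      hψ.comp (by fun_prop) fun y hy => hy
    have hfj : ContDiffOn ℝ ∞ (f ∘ fun y : E' => ψ (t, y)) {y : E' | (t, y) ∈ W} :=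
      hf.comp hj fun y hy => hVU (h2 _ hy).1
    refine measure_mono_null ?_ (ih E' hE' φ.ker μ' _ hWt (π ∘ f ∘ fun y : E' => ψ (t, y))
      (π.contDiff.comp_contDiffOn hfj))
    rintro c ⟨_, ⟨x, hx, rfl⟩, hc⟩
    have hc1 : φ (f x) = t := congrArg Prod.fst hc
    have hc2 : π (f x) = c := congrArg Prod.snd hc
    obtain ⟨y, hy, hyx⟩ := h1 x (hb hx.1).2
    rw [comp_apply, hc1] at hy hyx
    refine ⟨y, ⟨hy, fun hsurj => hx.2 ?_⟩, by simp only [comp_apply, hyx, hc2]⟩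
    have hdj : HasFDerivAt (fun y : E' => ψ (t, y)) (fderiv ℝ (fun y : E' => ψ (t, y)) y) y :=
      ((hj.contDiffAt (hWt.mem_nhds hy)).differentiableAt (by simp)).hasFDerivAt
    set J := fderiv ℝ (fun y : E' => ψ (t, y)) y
    have hd1 : HasFDerivAt (f ∘ fun y : E' => ψ (t, y)) ((fderiv ℝ f x).comp J) y := by
      refine HasFDerivAt.comp y ?_ hdj
      rw [hyx]
      exact hdf x (hbU hx.1)
    have hz : φ.comp ((fderiv ℝ f x).comp J) = 0 := by
      have ha := φ.hasFDerivAt.comp y hd1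
      have hb' : HasFDerivAt (φ ∘ f ∘ fun y : E' => ψ (t, y)) (0 : E' →L[ℝ] ℝ) y := by
        refine (hasFDerivAt_const t y).congr_of_eventuallyEq ?_
        filter_upwards [hWt.mem_nhds hy] with y' hy' using (h2 _ hy').2
      exact ha.unique hb'
    rw [(π.hasFDerivAt.comp y hd1).fderiv] at hsurj
    intro c'
    have hne := (hb hx.1).1
    set a : ℝ := φ c' / φ (fderiv ℝ f x e) with ha
    have hmem : c' - a • fderiv ℝ f x e ∈ φ.ker := by
      simp only [LinearMap.mem_ker, ContinuousLinearMap.coe_coe, map_sub, map_smul, smul_eq_mul, ha]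
      field_simp
      ring
    obtain ⟨η, hη⟩ := hsurj ⟨_, hmem⟩
    have hz' : φ (fderiv ℝ f x (J η)) = 0 := congrArg (fun L : E' →L[ℝ] ℝ => L η) hz
    have hη' : fderiv ℝ f x (J η) = c' - a • fderiv ℝ f x e := by
      have := congrArg Subtype.val hη
      simpa [π, hz'] using this
    exact ⟨J η + a • e, by rw [map_add, map_smul, hη', sub_add_cancel]⟩
  haveI : (ν.map B.symm).IsAddHaarMeasure := B.symm.isAddHaarMeasure_map ν
  refine Measure.absolutelyContinuous_isAddHaarMeasure μ (ν.map B.symm) ?_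
  rw [Measure.map_apply B.symm.continuous.measurable hfK.measurableSet, ← hν]
  congr 1
  exact (B.image_eq_preimage_symm _).symm

end steps

theorem sardFor (n : ℕ) : ∀ (E : Type u) [NormedAddCommGroup E] [NormedSpace ℝ E]
    [FiniteDimensional ℝ E], finrank ℝ E < n → SardFor.{u, v} E := by
  induction n with
  | zero => intro E _ _ _ h; omega
  | succ n ih =>
    intro E _ _ _ hn F _ _ _ _ _ μ _ U hU f hf
    have ih' : ∀ E' : Submodule ℝ E, finrank ℝ E' < finrank ℝ E → SardFor.{u, v} E' :=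
      fun E' h => ih E' (by omega)
    rcases subsingleton_or_nontrivial F with hF | hF
    · have : {x ∈ U | ¬ Surjective (fderiv ℝ f x)} = ∅ :=
        eq_empty_of_forall_notMem fun x hx => hx.2 fun c => ⟨0, Subsingleton.elim _ _⟩
      rw [this, image_empty, measure_empty]
    refine measure_mono_null ?_ (measure_union_null (stepA ih' hU hf) (measure_union_null
      (stepC hU hf) (measure_iUnion_null fun k => stepB ih' hU hf k)))
    rintro _ ⟨x, hx, rfl⟩
    by_cases h0 : fderiv ℝ f x = 0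
    · rcases van_cases.{u, v} (g := fderiv ℝ f) (x := x) ⟨h0, trivial⟩ (finrank ℝ E) with h | ⟨k, h⟩
      · exact Or.inr (Or.inl ⟨x, ⟨hx.1, h⟩, rfl⟩)
      · exact Or.inr (Or.inr (mem_iUnion.2 ⟨k, x, ⟨hx.1, h⟩, rfl⟩))
    · exact Or.inl ⟨x, ⟨hx.1, hx.2, h0⟩, rfl⟩

/-- **Sard's theorem** -/
theorem sard {E : Type u} [NormedAddCommGroup E] [NormedSpace ℝ E] [FiniteDimensional ℝ E]
    {F : Type v} [NormedAddCommGroup F] [NormedSpace ℝ F] [FiniteDimensional ℝ F]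
    [MeasurableSpace F] [BorelSpace F] (μ : Measure F) [μ.IsAddHaarMeasure] {U : Set E}
    (hU : IsOpen U) {f : E → F} (hf : ContDiffOn ℝ ∞ f U) :
    μ (f '' {x ∈ U | ¬ Surjective (fderiv ℝ f x)}) = 0 :=
  sardFor.{u, v} _ E (Nat.lt_succ_self _) F μ U hU f hf

/-- regular values are dense -/
theorem dense_regular {E : Type u} [NormedAddCommGroup E] [NormedSpace ℝ E] [FiniteDimensional ℝ E]
    {F : Type v} [NormedAddCommGroup F] [NormedSpace ℝ F] [FiniteDimensional ℝ F] {U : Set E}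
    (hU : IsOpen U) {f : E → F} (hf : ContDiffOn ℝ ∞ f U) :
    Dense {c : F | ∀ x ∈ U, f x = c → Surjective (fderiv ℝ f x)} := by
  borelize F
  have h := sard (Measure.addHaar : Measure F) hU hf
  refine (Measure.dense_of_ae (μ := (Measure.addHaar : Measure F))
    (p := fun c => ∀ x ∈ U, f x = c → Surjective (fderiv ℝ f x)) ?_)
  refine measure_mono_null ?_ h
  intro c hc
  simp only [mem_compl_iff, mem_setOf_eq, not_forall] at hc
  obtain ⟨x, hx, hxc, hs⟩ := hc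
  exact ⟨x, ⟨hx, hs⟩, hxc⟩

end Crest.Agent.X212.Sard93
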