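import Mathlib

/-!
# X212 / Sard93 / Loc (helper93): local tools in Banach spaces

* `isOpen_surj`  : onto operators between Banach spaces form an open set;
* `exists_locInv`: smooth local inverse on an open set (inverse function theorem, `C^∞` on open sets).
-/

set_option autoImplicit false
open scoped ContDiff Topology NNReal
open Set Filter Metric Function

namespace Crest.Agent.X212.Sard93

section
variable {E F : Type*} [NormedAddCommGroup E] [NormedSpace ℝ E] [NormedAddCommGroup F]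
  [NormedSpace ℝ F]

/-- onto operators between Banach spaces form an open set -/
theorem isOpen_surj [CompleteSpace E] [CompleteSpace F] :
    IsOpen {L : E →L[ℝ] F | Surjective L} := by
  rw [Metric.isOpen_iff]
  intro L hL
  obtain ⟨R, hR⟩ := L.exists_nonlinearRightInverse_of_surjective (LinearMap.range_eq_top.2 hL)
  have hR' : (0 : ℝ) < (R.nnnorm : ℝ)⁻¹ := inv_pos.2 (by exact_mod_cast hR)
  refine ⟨(R.nnnorm : ℝ)⁻¹, hR', fun L' hL' y => ?_⟩
  have hd : ‖L' - L‖ < (R.nnnorm : ℝ)⁻¹ := by rwa [mem_ball, dist_eq_norm] at hL'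
  have happ : ApproximatesLinearOn L' L univ ‖L' - L‖₊ := by
    intro x _ z _
    have : L' x - L' z - L (x - z) = (L' - L) (x - z) := by
      simp only [map_sub, ContinuousLinearMap.sub_apply]
      abel
    rw [this]
    exact (L' - L).le_opNorm _
  set δ : ℝ := (R.nnnorm : ℝ)⁻¹ - ‖L' - L‖ with hδ
  have hδ0 : 0 < δ := sub_pos.2 hd
  have h := happ.surjOn_closedBall_of_nonlinearRightInverse R (ε := ‖y‖ / δ) (b := 0)
    (by positivity) (subset_univ _)
  have hy : y ∈ closedBall (L' 0) (((R.nnnorm : ℝ)⁻¹ - (‖L' - L‖₊ : ℝ≥0)) * (‖y‖ / δ)) := by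
    rw [map_zero, mem_closedBall, dist_zero_right, coe_nnnorm, ← hδ]
    rw [mul_div_cancel₀ _ hδ0.ne']
  obtain ⟨x, -, hx⟩ := h hy
  exact ⟨x, hx⟩

/-- smooth local inverse -/
theorem exists_locInv [CompleteSpace E] {U : Set E} (hU : IsOpen U) {h : E → F}
    (hh : ContDiffOn ℝ ∞ h U) {x₀ : E} (hx₀ : x₀ ∈ U) (A : E ≃L[ℝ] F)
    (hA : fderiv ℝ h x₀ = (A : E →L[ℝ] F)) :
    ∃ (V : Set E) (W : Set F) (ψ : F → E), IsOpen V ∧ IsOpen W ∧ x₀ ∈ V ∧ V ⊆ U ∧
      MapsTo h V W ∧ MapsTo ψ W V ∧ (∀ x ∈ V, ψ (h x) = x) ∧ (∀ y ∈ W, h (ψ y) = y) ∧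
      ContDiffOn ℝ ∞ ψ W := by
  have hat : ∀ x ∈ U, ContDiffAt ℝ ∞ h x := fun x hx => hh.contDiffAt (hU.mem_nhds hx)
  have hd : ∀ x ∈ U, HasFDerivAt h (fderiv ℝ h x) x := fun x hx =>
    ((hat x hx).differentiableAt (by simp)).hasFDerivAt
  have hA' : HasFDerivAt h (A : E →L[ℝ] F) x₀ := hA ▸ hd x₀ hx₀
  let e := (hat x₀ hx₀).toOpenPartialHomeomorph h hA' (by simp)
  have hc : ContinuousOn (fderiv ℝ h) U := hh.continuousOn_fderiv_of_isOpen hU (by simp)
  let O : Set E := U ∩ fderiv ℝ h ⁻¹' range ((↑) : (E ≃L[ℝ] F) → E →L[ℝ] F)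
  have hO : IsOpen O := hc.isOpen_inter_preimage hU ContinuousLinearEquiv.isOpen
  let e' := e.restrOpen O hO
  have hcoe : (e' : E → F) = h := rfl
  have hsrc : e'.source = e.source ∩ O := rfl
  refine ⟨e'.source, e'.target, e'.symm, e'.open_source, e'.open_target, ?_, ?_, ?_, ?_, ?_, ?_, ?_⟩
  · exact ⟨(hat x₀ hx₀).mem_toOpenPartialHomeomorph_source hA' (by simp), hx₀, A, hA.symm⟩
  · exact fun x hx => hx.2.1
  · exact fun x hx => e'.map_source hx
  · exact fun y hy => e'.map_target hy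
  · exact fun x hx => e'.left_inv hx
  · exact fun y hy => e'.right_inv hy
  · intro y hy
    have hm : e'.symm y ∈ O := (e'.map_target hy).2
    obtain ⟨B, hB⟩ := hm.2
    refine (e'.contDiffAt_symm (f₀' := B) hy ?_ ?_).contDiffWithinAt
    · rw [hcoe, hB]
      exact hd _ hm.1
    · rw [hcoe]
      exact hat _ hm.1

end

end Crest.Agent.X212.Sard93
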